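/-
P016 (Artin's primitive root conjecture), hand-in RoughIndex.

For every integer `a` that is not a perfect square and every bound `Q`, there are infinitely many
primes `p` not dividing `a` such that every prime factor of the index `(p - 1) / ord_p(a)` of the
subgroup generated by `a` in the multiplicative group modulo `p` is larger than `Q`.
(`a` is a primitive root modulo `p` exactly when this index is `1`.)

The proof uses Dirichlet's theorem on primes in arithmetic progressions and quadratic reciprocity: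
one chooses a residue class in which `a` is a quadratic non-residue and in which `p - 1` has no odd
prime factor up to `Q`.  The prime `3` needs special care.
-/
import Mathlib

namespace Vale.Agent.Results.P016.RoughIndex

lemma exists_prime_crt (B t₂ : ℕ) (ht₂ : Odd t₂) (t : ℕ → ℕ)
    (ht : ∀ q, q.Prime → q ≠ 2 → q ≤ B → ¬ q ∣ t q) (N : ℕ) :
    ∃ p, N < p ∧ p.Prime ∧ p ≡ t₂ [MOD 8] ∧
      ∀ q, q.Prime → q ≠ 2 → q ≤ B → p ≡ t q [MOD q] := by
  classical
  set S : Finset ℕ := insert 2 ((Finset.range (B + 1)).filter (fun q => q.Prime)) with hS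
  set s : ℕ → ℕ := fun q => if q = 2 then 8 else q with hs
  set a : ℕ → ℕ := fun q => if q = 2 then t₂ else t q with ha
  have hSprime : ∀ q ∈ S, q.Prime := by
    intro q hq
    rcases Finset.mem_insert.mp hq with h | h
    · exact h ▸ Nat.prime_two
    · exact (Finset.mem_filter.mp h).2
  have hs0 : ∀ q ∈ S, s q ≠ 0 := by
    intro q hq
    by_cases h2 : q = 2
    · simp [hs, h2]
    · simp only [hs, h2, if_false]; exact (hSprime q hq).ne_zero
  have hodd : ∀ q, q.Prime → q ≠ 2 → Nat.Coprime 8 q := by
    intro q hq h2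
    have : Nat.Coprime 2 q := (Nat.coprime_primes Nat.prime_two hq).mpr (Ne.symm h2)
    have h8 : (8 : ℕ) = 2 ^ 3 := by norm_num
    rw [h8]; exact Nat.Coprime.pow_left 3 this
  have hpp : (S : Set ℕ).Pairwise (Function.onFun Nat.Coprime s) := by
    intro q hq q' hq' hne
    have hqp := hSprime q hq
    have hqp' := hSprime q' hq'
    simp only [Function.onFun, hs]
    by_cases h2 : q = 2
    · have h2' : q' ≠ 2 := fun h => hne (h2.trans h.symm)
      simp only [h2, h2', if_true, if_false]
      exact hodd q' hqp' h2'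
    · by_cases h2' : q' = 2
      · simp only [h2, h2', if_true, if_false]
        exact (hodd q hqp h2).symm
      · simp only [h2, h2', if_false]
        exact (Nat.coprime_primes hqp hqp').mpr hne
  obtain ⟨r, hr⟩ := Nat.chineseRemainderOfFinset a s S hs0 hpp
  set M : ℕ := ∏ q ∈ S, s q with hM
  have hM0 : M ≠ 0 := Finset.prod_ne_zero_iff.mpr hs0
  have hcop : Nat.Coprime r M := by
    apply Nat.Coprime.prod_right
    intro q hq
    have hrq := hr q hq
    have hqp := hSprime q hq
    by_cases h2 : q = 2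
    · simp only [hs, ha, h2, if_true] at hrq ⊢
      have h8 : (8 : ℕ) = 2 ^ 3 := by norm_num
      rw [h8]
      apply Nat.Coprime.pow_right
      rw [Nat.coprime_two_right]
      have h1 : r % 8 = t₂ % 8 := hrq
      rcases ht₂ with ⟨k, hk⟩
      rw [Nat.odd_iff]
      omega
    · simp only [hs, ha, h2, if_false] at hrq ⊢
      have hqB : q ≤ B := by
        rcases Finset.mem_insert.mp hq with h | h
        · exact absurd h h2
        · have := (Finset.mem_filter.mp h).1
          exact Nat.lt_succ_iff.mp (Finset.mem_range.mp this)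
      have hnd := ht q hqp h2 hqB
      have : ¬ q ∣ r := by
        intro hdiv
        apply hnd
        exact (Nat.ModEq.dvd_iff hrq (dvd_refl q)).mp hdiv
      exact ((Nat.Prime.coprime_iff_not_dvd hqp).mpr this).symm
  obtain ⟨p, hpN, hpp', hpr⟩ := Nat.forall_exists_prime_gt_and_modEq N hM0 hcop
  refine ⟨p, hpN, hpp', ?_, ?_⟩
  · have h2S : (2 : ℕ) ∈ S := Finset.mem_insert_self _ _
    have hd : s 2 ∣ M := Finset.dvd_prod_of_mem s h2S
    have h1 : p ≡ r [MOD s 2] := hpr.of_dvd hd
    have h2 := h1.trans (hr 2 h2S)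
    simpa [hs, ha] using h2
  · intro q hqp h2 hqB
    have hqS : q ∈ S := by
      apply Finset.mem_insert_of_mem
      exact Finset.mem_filter.mpr ⟨Finset.mem_range.mpr (Nat.lt_succ_iff.mpr hqB), hqp⟩
    have hd : s q ∣ M := Finset.dvd_prod_of_mem s hqS
    have h1 : p ≡ r [MOD s q] := hpr.of_dvd hd
    have h3 := h1.trans (hr q hqS)
    simpa [hs, ha, h2] using h3

lemma legendre_congr {q : ℕ} [Fact q.Prime] {x y : ℕ} (h : x ≡ y [MOD q]) :
    legendreSym q (x : ℤ) = legendreSym q (y : ℤ) := by
  have : ((x : ℤ) : ZMod q) = ((y : ℤ) : ZMod q) := by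
    push_cast
    exact (ZMod.natCast_eq_natCast_iff _ _ _).mpr h
  simp only [legendreSym, this]

lemma index_rough {p : ℕ} [Fact p.Prime] {a : ℤ} (hleg : legendreSym p a = -1) (Q : ℕ)
    (hrough : ∀ q, q.Prime → q ≠ 2 → q ∣ p - 1 → Q < q) :
    ∀ q : ℕ, q.Prime → q ∣ (p - 1) / orderOf (a : ZMod p) → Q < q := by
  intro q hq hdiv
  have hp : p.Prime := Fact.out
  have hx : (a : ZMod p) ≠ 0 := by
    intro h0
    have := (legendreSym.eq_zero_iff p a).mpr h0
    omega
  have ho : orderOf (a : ZMod p) ∣ p - 1 := ZMod.orderOf_dvd_card_sub_one hx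
  have hmul : orderOf (a : ZMod p) * q ∣ p - 1 := (Nat.dvd_div_iff_mul_dvd ho).mp hdiv
  by_cases h2 : q = 2
  · exfalso
    subst h2
    have hns : ¬ IsSquare (a : ZMod p) := (legendreSym.eq_neg_one_iff p).mp hleg
    apply hns
    rw [ZMod.euler_criterion p hx]
    rw [← orderOf_dvd_iff_pow_eq_one]
    obtain ⟨c, hc⟩ := hmul
    have : p / 2 = orderOf (a : ZMod p) * c := by
      have hp1 : 1 ≤ p := hp.one_lt.le
      have : p = orderOf (a : ZMod p) * c * 2 + 1 := by
        have : p - 1 = orderOf (a : ZMod p) * c * 2 := by rw [hc]; ring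
        omega
      omega
    rw [this]
    exact dvd_mul_right _ _
  · exact hrough q hq h2 (dvd_trans (dvd_mul_left _ _) hmul)

lemma legendre_squarefree {p : ℕ} [Fact p.Prime] (d : ℕ) (hd : Squarefree d) :
    legendreSym p (d : ℤ) = ∏ q ∈ d.primeFactors, legendreSym p (q : ℤ) := by
  conv_lhs => rw [← Nat.prod_primeFactors_of_squarefree hd]
  push_cast
  exact map_prod (legendreSym.hom p) _ _

lemma core (a : ℤ) (Q B t₂ : ℕ) (hQB : Q ≤ B) (ht₂ : Odd t₂) (t : ℕ → ℕ)
    (ht0 : ∀ q, q.Prime → q ≠ 2 → q ≤ B → ¬ q ∣ t q)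
    (ht1 : ∀ q, q.Prime → q ≠ 2 → q ≤ B → ¬ t q ≡ 1 [MOD q])
    (hleg : ∀ (p : ℕ) [Fact p.Prime], B < p → p ≡ t₂ [MOD 8] →
      (∀ q, q.Prime → q ≠ 2 → q ≤ B → p ≡ t q [MOD q]) → legendreSym p a = -1) :
    {p : ℕ | p.Prime ∧ ¬ (p : ℤ) ∣ a ∧
      ∀ q : ℕ, q.Prime → q ∣ (p - 1) / orderOf (a : ZMod p) → Q < q}.Infinite := by
  apply Set.infinite_of_forall_exists_gt
  intro N
  obtain ⟨p, hpN, hpp, hp8, hpq⟩ := exists_prime_crt B t₂ ht₂ t ht0 (max N B)
  have : Fact p.Prime := ⟨hpp⟩
  have hl := hleg p (lt_of_le_of_lt (le_max_right _ _) hpN) hp8 hpq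
  refine ⟨p, ⟨hpp, ?_, ?_⟩, lt_of_le_of_lt (le_max_left _ _) hpN⟩
  · intro hdiv
    have h0 : (a : ZMod p) = 0 := (ZMod.intCast_zmod_eq_zero_iff_dvd a p).mpr hdiv
    have := (legendreSym.eq_zero_iff p a).mpr h0
    omega
  · apply index_rough hl
    intro q hq h2 hdiv
    by_contra hle
    push Not at hle
    have hqB : q ≤ B := le_trans hle hQB
    apply ht1 q hq h2 hqB
    have h1 : p ≡ 1 [MOD q] := by
      have : 1 ≡ p [MOD q] := (Nat.modEq_iff_dvd' hpp.one_lt.le).mpr hdiv
      exact this.symm
    exact (hpq q hq h2 hqB).symm.trans h1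

lemma exists_nonresidue (l : ℕ) [Fact l.Prime] (hl : l ≠ 2) :
    ∃ u : ℕ, legendreSym l (u : ℤ) = -1 := by
  have hch : ringChar (ZMod l) ≠ 2 := by rw [ZMod.ringChar_zmod_n]; exact hl
  obtain ⟨x, hx⟩ := quadraticChar_exists_neg_one hch
  refine ⟨x.val, ?_⟩
  simp only [legendreSym]
  push_cast
  rw [ZMod.natCast_zmod_val]
  exact hx

lemma legendre_four (q : ℕ) [Fact q.Prime] (hq : q ≠ 2) : legendreSym q ((4 : ℕ) : ℤ) = 1 := by
  have h2 : (((2 : ℤ)) : ZMod q) ≠ 0 := by
    intro h
    have h' : (q : ℤ) ∣ 2 := (ZMod.intCast_zmod_eq_zero_iff_dvd 2 q).mp h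
    have h'' : q ∣ 2 := by exact_mod_cast h'
    exact hq ((Nat.prime_dvd_prime_iff_eq Fact.out Nat.prime_two).mp h'')
  have := legendreSym.sq_one' q h2
  have h4 : (((4 : ℕ)) : ℤ) = (2 : ℤ) ^ 2 := by norm_num
  rw [h4]; exact this

theorem result (a : ℤ) (ha : ¬ IsSquare a) (Q : ℕ) :
    {p : ℕ | p.Prime ∧ ¬ (p : ℤ) ∣ a ∧
      ∀ q : ℕ, q.Prime → q ∣ (p - 1) / orderOf (a : ZMod p) → Q < q}.Infinite := by
  have ha0 : a ≠ 0 := by
    rintro rfl
    exact ha ⟨0, by simp⟩
  set n := a.natAbs with hn
  have hn0 : n ≠ 0 := Int.natAbs_ne_zero.mpr ha0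
  obtain ⟨d, b, hbd, hd⟩ := Nat.sq_mul_squarefree n
  have hb0 : b ≠ 0 := by
    rintro rfl
    apply hn0; rw [← hbd]; simp
  have hd0 : d ≠ 0 := hd.ne_zero
  have hbn : b ∣ n := by rw [← hbd]; exact Dvd.intro _ (by ring : b * (b * d) = b ^ 2 * d)
  have hdn : d ∣ n := by rw [← hbd]; exact dvd_mul_left _ _
  set B := Q + n + 3 with hB
  have hQB : Q ≤ B := by omega
  have hred : ∀ (p : ℕ) [Fact p.Prime], B < p →
      legendreSym p (n : ℤ) = legendreSym p (d : ℤ) := by
    intro p _ hp
    have hbp : (((b : ℤ)) : ZMod p) ≠ 0 := by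
      intro h
      have h' : (p : ℤ) ∣ (b : ℤ) := (ZMod.intCast_zmod_eq_zero_iff_dvd _ p).mp h
      have h'' : p ∣ b := by exact_mod_cast h'
      have := Nat.le_of_dvd (Nat.pos_of_ne_zero hn0) (h''.trans hbn)
      omega
    have : (n : ℤ) = (b : ℤ) ^ 2 * (d : ℤ) := by rw [← hbd]; push_cast; ring
    rw [this, legendreSym.mul, legendreSym.sq_one' p hbp, one_mul]
  have hsign : a = (n : ℤ) ∨ a = -(n : ℤ) := by
    rw [hn]; exact Int.natAbs_eq a
  by_cases hodd : ∃ l : ℕ, l.Prime ∧ l ≠ 2 ∧ l ∣ d
  · -- Case I : the squarefree part has an odd prime factor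
    obtain ⟨l, hlp, hl2, hld, hl3⟩ : ∃ l : ℕ, l.Prime ∧ l ≠ 2 ∧ l ∣ d ∧ (3 ∣ d → l = 3) := by
      by_cases h3 : 3 ∣ d
      · exact ⟨3, Nat.prime_three, by norm_num, h3, fun _ => rfl⟩
      · obtain ⟨l, h1, h2, h3'⟩ := hodd
        exact ⟨l, h1, h2, h3', fun h => absurd h h3⟩
    have : Fact l.Prime := ⟨hlp⟩
    obtain ⟨u, hu⟩ := exists_nonresidue l hl2
    set t : ℕ → ℕ := fun q => if q = l then u else if q = 3 then 2 else 4 with ht
    apply core a Q B 1 hQB odd_one t
    · intro q hq h2 _ hdiv
      by_cases hql : q = l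
      · subst hql
        simp only [ht, if_true] at hdiv
        have h0 : (((u : ℤ)) : ZMod q) = 0 := by
          rw [ZMod.intCast_zmod_eq_zero_iff_dvd]; exact_mod_cast hdiv
        have := (legendreSym.eq_zero_iff q (u : ℤ)).mpr h0
        omega
      · by_cases hq3 : q = 3
        · subst hq3
          simp only [ht, hql, if_false, if_true] at hdiv
          omega
        · simp only [ht, hql, hq3, if_false] at hdiv
          have h4 : (4 : ℕ) = 2 ^ 2 := by norm_num
          rw [h4] at hdiv
          have := hq.dvd_of_dvd_pow hdiv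
          exact h2 ((Nat.prime_dvd_prime_iff_eq hq Nat.prime_two).mp this)
    · intro q hq h2 _ hmod
      by_cases hql : q = l
      · subst hql
        simp only [ht, if_true] at hmod
        have := legendre_congr hmod
        rw [hu] at this
        simp at this
      · by_cases hq3 : q = 3
        · subst hq3
          simp only [ht, hql, if_false, if_true] at hmod
          exact absurd hmod (by decide)
        · simp only [ht, hql, hq3, if_false] at hmod
          have h31 : q ∣ 4 - 1 := (Nat.modEq_iff_dvd' (by norm_num)).mp hmod.symm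
          have h33 : q ∣ 3 := by simpa using h31
          exact hq3 ((Nat.prime_dvd_prime_iff_eq hq Nat.prime_three).mp h33)
    · intro p _ hpB hp8 hpq
      have hpp : p.Prime := Fact.out
      have hp8' : p % 8 = 1 := hp8
      have hp4 : p % 4 = 1 := by omega
      have hp2 : p ≠ 2 := by omega
      have hnl : legendreSym p (n : ℤ) = -1 := by
        rw [hred p hpB, legendre_squarefree d hd]
        rw [Finset.prod_eq_single l]
        · rw [← legendreSym.quadratic_reciprocity_one_mod_four hp4 hl2]
          have hlB : l ≤ B := by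
            have := Nat.le_of_dvd (Nat.pos_of_ne_zero hn0) (hld.trans hdn)
            omega
          have h1 := legendre_congr (hpq l hlp hl2 hlB)
          rw [h1]
          simp only [ht, if_true]
          exact hu
        · intro q hq hql
          have hqp : q.Prime := Nat.prime_of_mem_primeFactors hq
          have hqd : q ∣ d := Nat.dvd_of_mem_primeFactors hq
          have : Fact q.Prime := ⟨hqp⟩
          by_cases hq2 : q = 2
          · subst hq2
            have := legendreSym.at_two hp2
            push_cast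
            rw [this, ZMod.χ₈_nat_eq_if_mod_eight]
            have h20 : ¬ (p % 2 = 0) := by omega
            simp [h20, hp8']
          · have hq3 : q ≠ 3 := by
              intro h3
              apply hql
              rw [h3]
              exact (hl3 (h3 ▸ hqd)).symm
            rw [← legendreSym.quadratic_reciprocity_one_mod_four hp4 hq2]
            have hqB : q ≤ B := by
              have := Nat.le_of_dvd (Nat.pos_of_ne_zero hn0) (hqd.trans hdn)
              omega
            have h1 := legendre_congr (hpq q hqp hq2 hqB)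
            rw [h1]
            simp only [ht, hql, hq3, if_false]
            exact legendre_four q hq2
        · intro hnot
          exact absurd (Nat.mem_primeFactors.mpr ⟨hlp, hld, hd0⟩) hnot
      rcases hsign with h | h
      · rw [h]; exact hnl
      · rw [h, legendreSym.at_neg hp2, hnl, ZMod.χ₄_nat_one_mod_four hp4]; norm_num
  · -- Case II : the squarefree part is 1 or 2
    push Not at hodd
    have hpf : ∀ q ∈ d.primeFactors, q = 2 := by
      intro q hq
      by_contra h2
      exact hodd q (Nat.prime_of_mem_primeFactors hq) h2 (Nat.dvd_of_mem_primeFactors hq)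
    have ht0 : ∀ q : ℕ, q.Prime → q ≠ 2 → q ≤ B → ¬ q ∣ 2 := by
      intro q hq h2 _ hdiv
      exact h2 ((Nat.prime_dvd_prime_iff_eq hq Nat.prime_two).mp hdiv)
    have ht1 : ∀ q : ℕ, q.Prime → q ≠ 2 → q ≤ B → ¬ 2 ≡ 1 [MOD q] := by
      intro q hq _ _ hmod
      have h31 : q ∣ 2 - 1 := (Nat.modEq_iff_dvd' (by norm_num)).mp hmod.symm
      have h33 : q ∣ 1 := by simpa using h31
      exact hq.one_lt.ne' (Nat.dvd_one.mp h33)
    by_cases h2d : 2 ∣ d
    · -- d = 2
      have hd2 : d.primeFactors = {2} := by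
        ext q
        constructor
        · intro hq; exact Finset.mem_singleton.mpr (hpf q hq)
        · intro hq
          rw [Finset.mem_singleton.mp hq]
          exact Nat.mem_primeFactors.mpr ⟨Nat.prime_two, h2d, hd0⟩
      apply core a Q B 5 hQB (by decide) (fun _ => 2) ht0 ht1
      intro p _ hpB hp8 _
      have hp8' : p % 8 = 5 := hp8
      have hp4 : p % 4 = 1 := by omega
      have hp2 : p ≠ 2 := by omega
      have hnl : legendreSym p (n : ℤ) = -1 := by
        rw [hred p hpB, legendre_squarefree d hd, hd2, Finset.prod_singleton]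
        have := legendreSym.at_two hp2
        push_cast
        rw [this, ZMod.χ₈_nat_eq_if_mod_eight]
        have h20 : ¬ (p % 2 = 0) := by omega
        simp [h20, hp8']
      rcases hsign with h | h
      · rw [h]; exact hnl
      · rw [h, legendreSym.at_neg hp2, hnl, ZMod.χ₄_nat_one_mod_four hp4]; norm_num
    · -- d = 1
      have hd1 : d.primeFactors = ∅ := by
        apply Finset.eq_empty_of_forall_notMem
        intro q hq
        apply h2d
        rw [← hpf q hq]
        exact Nat.dvd_of_mem_primeFactors hq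
      have hneg : a = -(n : ℤ) := by
        rcases hsign with h | h
        · exfalso
          apply ha
          have hdone : d = 1 := by
            have := Nat.prod_primeFactors_of_squarefree hd
            rw [hd1] at this
            simpa using this.symm
          refine ⟨(b : ℤ), ?_⟩
          rw [h, ← hbd, hdone]; push_cast; ring
        · exact h
      apply core a Q B 3 hQB (by decide) (fun _ => 2) ht0 ht1
      intro p _ hpB hp8 _
      have hp8' : p % 8 = 3 := hp8
      have hp4 : p % 4 = 3 := by omega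
      have hp2 : p ≠ 2 := by omega
      have hnl : legendreSym p (n : ℤ) = 1 := by
        rw [hred p hpB, legendre_squarefree d hd, hd1, Finset.prod_empty]
      rw [hneg, legendreSym.at_neg hp2, hnl, ZMod.χ₄_nat_three_mod_four hp4]; norm_num

end Vale.Agent.Results.P016.RoughIndex
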